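import Vale.Agent.P092.H790.CTA
import Vale.Agent.P092.SP.UL

/-!
P092 (helper306), TEAM P, block [P-PUR] part 1: the counting principle (R) for opposite sets,
abstract form: `P` is dominated by cut-offs near a wall (along a filter of times), `F` is only a
completely positive limit (`SP.UL`), and few elements of `Γ` carry `F h`.
-/

set_option linter.all false

open scoped InnerProductSpace ENNReal
open Filter Topology ContinuousLinearMap MeasureTheory TopologicalSpace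

namespace Vale.Agent.P092.H306.Pu

open Vale.Agent.P092.SD (Ms UC)
open Vale.Agent.P092.RC (Cm TRN Pic)
open Vale.Agent.P092.H790.CT (PicL mulA oneA pi_norm lam_norm)
open Vale.Agent.P092.H790.CTA (ORBG SIZEG csm cnt_size conj_pow' comm_inv comm_pow of_poly)
open Vale.Agent.P092.SP (UL)

section ul

variable {Y K : Type} [TopologicalSpace Y] [NormedAddCommGroup K] [InnerProductSpace ℂ K]
  [CompleteSpace K] {E : C(Y, ℂ) →ₗ[ℂ] (K →L[ℂ] K)} {p : ℝ}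

theorem adj_ul (h : UL E p) (f : C(Y, ℂ)) : adjoint (E f) = E (star f) := by
  rw [h.star]
  rfl

/-- positivity and the total mass give the upper bound -/
theorem ul_re_le (h : UL E p) (f : C(Y, ℂ)) (r : Y → ℝ) (hr : ∀ y, f y = (r y : ℂ)) {c : ℝ}
    (hc : ∀ y, r y ≤ c) (ξ : K) : (⟪ξ, E f ξ⟫_ℂ).re ≤ c * p * ‖ξ‖ ^ 2 := by
  have hrc : Continuous r := by
    have e : r = fun y => (f y).re := by
      funext y
      rw [hr]
      simp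
    rw [e]
    exact Complex.continuous_re.comp f.continuous
  obtain ⟨v, hv⟩ : ∃ v : C(Y, ℂ), ∀ y, v y = ((Real.sqrt (c - r y) : ℝ) : ℂ) :=
    ⟨⟨fun y => ((Real.sqrt (c - r y) : ℝ) : ℂ),
      Complex.continuous_ofReal.comp (continuous_const.sub hrc).sqrt⟩, fun y => rfl⟩
  have e1 : star v * v = (c : ℂ) • (1 : C(Y, ℂ)) - f := by
    ext y
    have h1 : 0 ≤ c - r y := sub_nonneg.2 (hc y)
    have h2 : (star v * v : C(Y, ℂ)) y = (starRingEnd ℂ) (v y) * v y := rfl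
    have h3 : ((c : ℂ) • (1 : C(Y, ℂ)) - f : C(Y, ℂ)) y = (c : ℂ) * 1 - f y := rfl
    rw [h2, h3, hv, hr, Complex.conj_ofReal, ← Complex.ofReal_mul, Real.mul_self_sqrt h1]
    push_cast
    ring
  have h1 := h.bes 1 (fun _ => v) ξ
  simp only [Finset.univ_unique, Finset.sum_const, Finset.card_singleton, one_smul] at h1
  rw [e1, map_sub, map_smul, h.one] at h1
  have e2 : ⟪ξ, ((c : ℂ) • ((p : ℂ) • (1 : K →L[ℂ] K)) - E f) ξ⟫_ℂ =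
      (c : ℂ) * ((p : ℂ) * ((‖ξ‖ : ℂ) ^ 2)) - ⟪ξ, E f ξ⟫_ℂ := by
    have e3 : ((c : ℂ) • ((p : ℂ) • (1 : K →L[ℂ] K)) - E f) ξ =
        (c : ℂ) • ((p : ℂ) • ξ) - E f ξ := rfl
    rw [e3, inner_sub_right, inner_smul_right, inner_smul_right, inner_self_eq_norm_sq_to_K]
    rfl
  rw [e2, Complex.sub_re] at h1
  have e4 : ((c : ℂ) * ((p : ℂ) * ((‖ξ‖ : ℂ) ^ 2))).re = c * p * ‖ξ‖ ^ 2 := by
    have e5 : (c : ℂ) * ((p : ℂ) * ((‖ξ‖ : ℂ) ^ 2)) = ((c * p * ‖ξ‖ ^ 2 : ℝ) : ℂ) := by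
      push_cast
      ring
    rw [e5, Complex.ofReal_re]
  rw [e4] at h1
  have h5 : (0 : ℝ) ≤ ‖E v ξ‖ ^ 2 := sq_nonneg _
  linarith

theorem ul_bes {I : Type} (h : UL E p) (S : Finset I) (v : I → C(Y, ℂ)) (ξ : K) :
    ∑ i ∈ S, ‖E (v i) ξ‖ ^ 2 ≤ (⟪ξ, E (∑ i ∈ S, star (v i) * v i) ξ⟫_ℂ).re := by
  classical
  have h1 := h.bes S.card (fun j => v (S.equivFin.symm j)) ξ
  have e1 : ∑ j, ‖E (v (S.equivFin.symm j)) ξ‖ ^ 2 = ∑ i ∈ S, ‖E (v i) ξ‖ ^ 2 := by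
    rw [← Finset.sum_coe_sort S]
    exact Fintype.sum_equiv S.equivFin.symm _ _ fun _ => rfl
  have e2 : ∑ j, star (v (S.equivFin.symm j)) * v (S.equivFin.symm j) =
      ∑ i ∈ S, star (v i) * v i := by
    rw [← Finset.sum_coe_sort S (fun i => star (v i) * v i)]
    exact Fintype.sum_equiv S.equivFin.symm _ _ fun _ => rfl
  rw [e1, e2] at h1
  exact h1

/-- the sum over a family of functions which overlap at most `M` times -/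
theorem ul_count {I : Type} (h : UL E p) (S : Finset I) (v : I → C(Y, ℂ)) {a M : ℝ}
    (ha : ∀ i y, ‖v i y‖ ≤ a) (hM : ∀ y, ∀ S' ⊆ S, (∀ i ∈ S', v i y ≠ 0) → (S'.card : ℝ) ≤ M)
    (ξ : K) : ∑ i ∈ S, ‖E (v i) ξ‖ ^ 2 ≤ a ^ 2 * M * p * ‖ξ‖ ^ 2 := by
  classical
  refine (ul_bes h S v ξ).trans ?_
  refine ul_re_le h _ (fun y => ∑ i ∈ S, ‖v i y‖ ^ 2) ?_ ?_ ξ
  · intro y
    rw [ContinuousMap.sum_apply]
    push_cast
    refine Finset.sum_congr rfl fun i _ => ?_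
    change (starRingEnd ℂ) (v i y) * v i y = _
    rw [Complex.conj_mul']
  · intro y
    have h1 : ∑ i ∈ S, ‖v i y‖ ^ 2 = ∑ i ∈ S.filter (fun i => v i y ≠ 0), ‖v i y‖ ^ 2 := by
      rw [Finset.sum_filter]
      refine Finset.sum_congr rfl fun i _ => ?_
      by_cases hi : v i y ≠ 0
      · rw [if_pos hi]
      · rw [if_neg hi]
        rw [not_not] at hi
        rw [hi]
        simp
    rw [h1]
    have h2 : ∑ i ∈ S.filter (fun i => v i y ≠ 0), ‖v i y‖ ^ 2 ≤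
        ∑ i ∈ S.filter (fun i => v i y ≠ 0), a ^ 2 :=
      Finset.sum_le_sum fun i _ => pow_le_pow_left₀ (norm_nonneg _) (ha i y) 2
    refine h2.trans ?_
    rw [Finset.sum_const, nsmul_eq_mul, mul_comm]
    exact mul_le_mul_of_nonneg_left (hM y _ (Finset.filter_subset _ _)
      fun i hi => (Finset.mem_filter.1 hi).2) (sq_nonneg a)

end ul

section main

variable {G Γ K V : Type} [Group G] [Group Γ] [NormedAddCommGroup K] [InnerProductSpace ℂ K]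
  [CompleteSpace K] {π : G →* (K →L[ℂ] K)} {lam : Γ →* (K →L[ℂ] K)} {W : Set (K →L[ℂ] K)} {Ω : K}
  {m : Set Γ → (K →L[ℂ] K)} {Y H : Type} [TopologicalSpace Y] [CompactSpace Y] [Group H]
  [MulAction H Y] [ContinuousConstSMul H Y] {q : Γ → H}

/-- few elements of `Γ` carry `F h` -/
theorem count_of_cap (hP : PicL π lam W Ω) {F : C(Y, ℂ) →ₗ[ℂ] (K →L[ℂ] K)} {p : ℝ} (hF : UL F p)
    (hcov : ∀ γ f f', (∀ y, f' (q γ • y) = f y) → lam γ * F f * lam γ⁻¹ = F f')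
    (h : C(Y, ℂ)) (S : Finset Γ) {M : ℝ}
    (hM : ∀ y, ∀ S' ⊆ S, (∀ γ ∈ S', q γ • y ∈ tsupport h) → (S'.card : ℝ) ≤ M) :
    ∑ γ ∈ S, ‖adjoint (F h) (lam γ Ω)‖ ^ 2 ≤ ‖h‖ ^ 2 * M * p * ‖Ω‖ ^ 2 := by
  obtain ⟨v, hv⟩ : ∃ v : Γ → C(Y, ℂ), ∀ γ y, v γ y = (starRingEnd ℂ) (h (q γ • y)) :=
    ⟨fun γ => ⟨fun y => (starRingEnd ℂ) (h (q γ • y)),
      Complex.continuous_conj.comp (h.continuous.comp (continuous_const_smul (q γ)))⟩,
      fun γ y => rfl⟩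
  have e1 : ∀ γ, ‖adjoint (F h) (lam γ Ω)‖ = ‖F (v γ) Ω‖ := by
    intro γ
    have h1 : lam γ * F (v γ) * lam γ⁻¹ = F (star h) :=
      hcov γ (v γ) (star h) fun y => (hv γ y).symm
    have h2 : lam γ⁻¹ (lam γ Ω) = Ω := by
      rw [← mulA, ← map_mul, inv_mul_cancel, map_one]
      rfl
    rw [adj_ul hF, ← h1, mulA, mulA, h2, lam_norm hP]
  simp_rw [e1]
  refine ul_count hF S v (fun γ y => ?_) (fun y S' hS' h1 => hM y S' hS' fun γ hγ => ?_) Ω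
  · rw [hv, RCLike.norm_conj]
    exact h.norm_coe_le_norm _
  · refine subset_tsupport _ ?_
    intro h2
    refine h1 γ hγ ?_
    rw [hv]
    have h3 : h (q γ • y) = 0 := h2
    rw [h3, map_zero]

variable [TopologicalSpace G] [IsTopologicalGroup G] [NormedAddCommGroup V] [ProperSpace V]
  [MeasurableSpace V] [BorelSpace V] {μ : Measure V} [IsFiniteMeasureOnCompacts μ]
  [μ.IsOpenPosMeasure] {b : G} {n : V → G} {ρ : ℝ} {sz : Γ → ℝ}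

/-- The counting principle for an operator dominated by cut-offs along a filter of times. -/
theorem mul_zero_fil (hP : PicL π lam W Ω) (hM : Ms lam W Ω m) (hUC : UC π W Ω m)
    (hρ : 0 ≤ ρ) (hnc : Tendsto n (𝓝 0) (𝓝 1)) (hORB : ORBG μ b n ρ π lam W Ω)
    (hsz : ∀ γ, ∃ d : ℝ, 1 ≤ d ∧ ∀ y, sz (γ * y) ≤ d * sz y)
    (hS : SIZEG b π Ω m sz) {g : G} {B P : K →L[ℂ] K} (hB : Cm W B)
    (hb : Commute B (π (g * b * g⁻¹))) (hn : ∀ s, Commute B (π (g * n s * g⁻¹)))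
    {𝒰 : Filter ℕ} [𝒰.NeBot] (hU : 𝒰 ≤ atTop)
    {c : ℝ} (hdom : ∀ ζ : K, ∀ ε > 0, ∃ A : Set Γ, (∃ η > 0, Tendsto (fun N : ℕ => csm ρ lam Ω B
      {γ | γ ∈ A ∧ sz γ ≤ Real.exp (Real.exp (η * N))} N) atTop (𝓝 0)) ∧
      ∀ᶠ N : ℕ in 𝒰, ‖P ζ‖ ≤ c * ‖m A (π (g * b ^ N * g⁻¹)⁻¹ ζ)‖ + ε) :
    P * B = 0 := by
  refine ContinuousLinearMap.ext fun ζ => ?_
  change P (B ζ) = 0
  rw [← norm_eq_zero]
  refine le_antisymm (le_of_forall_pos_le_add fun ε hε => ?_) (norm_nonneg _)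
  rw [zero_add]
  obtain ⟨A, ⟨η, hη, hcA⟩, hA⟩ := hdom (B ζ) ε hε
  have h1 := (cnt_size (μ := μ) hP hM hUC hρ hnc hORB hsz hS hB hb hn hη hcA ζ).mono_left hU
  have h4 : Tendsto (fun N : ℕ => c * ‖m A (B (π (g * b ^ N * g⁻¹)⁻¹ ζ))‖ + ε) 𝒰 (𝓝 ε) := by
    have h5 := (h1.norm.const_mul c).add_const ε
    rwa [norm_zero, mul_zero, zero_add] at h5
  refine ge_of_tendsto h4 (hA.mono fun N hN => ?_)
  have e1 : π (g * b ^ N * g⁻¹)⁻¹ (B ζ) = B (π (g * b ^ N * g⁻¹)⁻¹ ζ) := by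
    have h6 : Commute B (π (g * b ^ N * g⁻¹)⁻¹) := by
      rw [conj_pow']
      exact comm_inv (comm_pow hb N)
    exact (congrArg (fun A : K →L[ℂ] K => A ζ) h6.eq).symm
  rw [← e1]
  exact hN

/-- **(R) for opposite sets**: `P` is dominated by the cut-offs `NA R T` near a wall, `F h` is
carried by few elements of them. -/
theorem ropp (hP : PicL π lam W Ω) (hM : Ms lam W Ω m) (hUC : UC π W Ω m)
    (hρ : 0 < ρ) (hρ1 : ρ < 1) (hnc : Tendsto n (𝓝 0) (𝓝 1)) (hORB : ORBG μ b n ρ π lam W Ω)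
    (hsz0 : ∀ γ, 0 < sz γ) (hsz : ∀ γ, ∃ d : ℝ, 1 ≤ d ∧ ∀ y, sz (γ * y) ≤ d * sz y)
    (hS : SIZEG b π Ω m sz) {g : G} {𝒰 : Filter ℕ} [𝒰.NeBot] (hU : 𝒰 ≤ atTop)
    {F : C(Y, ℂ) →ₗ[ℂ] (K →L[ℂ] K)} {p : ℝ} {h : C(Y, ℂ)} (hF : UL F p) (hFc : Cm W (F h))
    (hcov : ∀ γ f f', (∀ y, f' (q γ • y) = f y) → lam γ * F f * lam γ⁻¹ = F f')
    (hb : Commute (F h) (π (g * b * g⁻¹))) (hn : ∀ s, Commute (F h) (π (g * n s * g⁻¹)))
    {P : K →L[ℂ] K} {NA : ℝ → ℝ → Set Γ} {c : ℝ}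
    (hdom : ∀ ζ : K, ∀ ε > 0, ∃ R : ℝ, ∀ T > 0, ∀ᶠ t : ℕ in 𝒰,
      ‖P ζ‖ ≤ c * ‖m (NA R T) (π (g * b ^ t * g⁻¹)⁻¹ ζ)‖ + ε) {d : ℕ}
    (hcap : ∀ R : ℝ, ∃ T > 0, ∃ C : ℝ, ∀ J : ℝ, 0 ≤ J → ∀ S : Finset Γ,
      (∀ γ ∈ S, γ ∈ NA R T ∧ Real.log (sz γ) ≤ J) → ∀ y, (∀ γ ∈ S, q γ • y ∈ tsupport h) →
        (S.card : ℝ) ≤ C * (1 + J) ^ d) :
    P * F h = 0 := by
  obtain ⟨η, hη, hpoly⟩ := of_poly (lam := lam) (Ω := Ω) hρ hρ1 hsz0 d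
  refine mul_zero_fil (μ := μ) hP hM hUC hρ.le hnc hORB hsz hS hFc hb hn hU (c := c)
    fun ζ ε hε => ?_
  obtain ⟨R, hR⟩ := hdom ζ ε hε
  obtain ⟨T, hT, C, hC⟩ := hcap R
  refine ⟨NA R T, ⟨η, hη, ?_⟩, hR T hT⟩
  refine hpoly (F h) (NA R T) (‖h‖ ^ 2 * C * p * ‖Ω‖ ^ 2) fun J hJ S hS => ?_
  refine (count_of_cap hP hF hcov h S (M := C * (1 + J) ^ d) fun y S' hS' h1 => ?_).trans ?_
  · exact hC J hJ S' (fun γ hγ => hS γ (hS' hγ)) y h1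
  · exact le_of_eq (by ring)

end main

end Vale.Agent.P092.H306.Pu
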