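import Vale.Agent.P092.H370.Sp4
import Vale.Agent.P092.H820.Grid

/-!
P092 (helper306), TEAM P, block [P-PUR] part 2: `Sp_4(k)` is transitive on flags (point on a line)
and on antiflags (point not on a line) of the symplectic quadrangle, with explicit base pairs; the
root group `sh'` and the wall `b1` fix the two base lines `l0 = ⟨e_0, e_1⟩`, `l13 = ⟨e_1, e_3⟩`.
-/

set_option linter.all false

open Matrix Module Set Topology
open scoped LinearAlgebra.Projectivization

namespace Vale.Agent.P092.H306.Pu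

open Vale.Agent.P092.SP4
open Vale.Agent.P092.H100.Gr (Gr)
open Vale.Agent.P092.RC (YY y0)

section basis

variable {k : Type} [Field k]

/-- the matrix with the columns `c, b, b', d` -/
def cols (c b b' d : Fin 4 → k) : Matrix (Fin 4) (Fin 4) k := fun i j => ![c i, b i, b' i, d i] j

theorem cols_mul (c b b' d x : Fin 4 → k) :
    cols c b b' d *ᵥ x = x 0 • c + x 1 • b + x 2 • b' + x 3 • d := by
  ext i
  simp [cols, Matrix.mulVec, dotProduct, Fin.sum_univ_four]
  ring

theorem cols_sp {c b b' d : Fin 4 → k} (h1 : om c d = 1) (h2 : om b b' = 1) (h3 : om c b = 0)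
    (h4 : om c b' = 0) (h5 : om b d = 0) (h6 : om b' d = 0) :
    (cols c b b' d)ᵀ * J4 k * cols c b b' d = J4 k := by
  have key : ∀ i j, ((cols c b b' d)ᵀ * J4 k * cols c b b' d) i j =
      om (fun l => cols c b b' d l i) (fun l => cols c b b' d l j) := by
    intro i j
    rw [Matrix.mul_assoc]
    rfl
  have hc : (fun l => cols c b b' d l 0) = c := rfl
  have hb : (fun l => cols c b b' d l 1) = b := rfl
  have hb' : (fun l => cols c b b' d l 2) = b' := rfl
  have hd : (fun l => cols c b b' d l 3) = d := rfl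
  ext i j
  rw [key]
  fin_cases i <;> fin_cases j <;>
    simp only [Fin.zero_eta, Fin.mk_one, Fin.reduceFinMk, hc, hb, hb', hd, om_self] <;>
    simp [J4, h1, h2, h3, h4, h5, h6, om_swap c b, om_swap c b', om_swap c d, om_swap b b',
      om_swap b d, om_swap b' d, om_swap d c, om_swap d b, om_swap d b', om_swap b' b]

/-- a symplectic matrix has determinant one -/
theorem det_eq_one {M : Matrix (Fin 4) (Fin 4) k} (h : Mᵀ * J4 k * M = J4 k) : M.det = 1 := by
  have key : ∀ i j, (Mᵀ * J4 k * M) i j = om (fun l => M l i) (fun l => M l j) := by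
    intro i j
    rw [Matrix.mul_assoc]
    rfl
  have h01 : om (fun l => M l 0) (fun l => M l 1) = 0 := by rw [← key, h]; rfl
  have h02 : om (fun l => M l 0) (fun l => M l 2) = 0 := by rw [← key, h]; rfl
  have h03 : om (fun l => M l 0) (fun l => M l 3) = 1 := by rw [← key, h]; rfl
  have h12 : om (fun l => M l 1) (fun l => M l 2) = 1 := by rw [← key, h]; rfl
  have h13 : om (fun l => M l 1) (fun l => M l 3) = 0 := by rw [← key, h]; rfl
  have h23 : om (fun l => M l 2) (fun l => M l 3) = 0 := by rw [← key, h]; rfl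
  have pf : M.det = om (fun l => M l 0) (fun l => M l 3) * om (fun l => M l 1) (fun l => M l 2) -
      om (fun l => M l 0) (fun l => M l 2) * om (fun l => M l 1) (fun l => M l 3) +
      om (fun l => M l 0) (fun l => M l 1) * om (fun l => M l 2) (fun l => M l 3) := by
    simp only [om_eq]
    rw [Matrix.det_succ_row_zero]
    simp [Fin.sum_univ_succ, Matrix.det_fin_three, Fin.succAbove, Matrix.submatrix]
    ring
  rw [pf, h01, h02, h03, h12, h13, h23]
  ring

/-- `S4` acts simply transitively on the symplectic bases -/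
theorem exists_cols {c b b' d : Fin 4 → k} (h1 : om c d = 1) (h2 : om b b' = 1)
    (h3 : om c b = 0) (h4 : om c b' = 0) (h5 : om b d = 0) (h6 : om b' d = 0) :
    ∃ g : S4 k, ∀ x, g.1 • x = x 0 • c + x 1 • b + x 2 • b' + x 3 • d := by
  have h := cols_sp h1 h2 h3 h4 h5 h6
  refine ⟨⟨⟨cols c b b' d, det_eq_one h⟩, mem_S4'.2 h⟩, fun x => ?_⟩
  change cols c b b' d *ᵥ x = _
  exact cols_mul c b b' d x

/-- complete `c, b, d` to a symplectic basis -/
theorem exists_fourth {c b d : Fin 4 → k} (h1 : om c d = 1) (h3 : om c b = 0) (h5 : om b d = 0)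
    (hb : b ≠ 0) : ∃ b', om b b' = 1 ∧ om c b' = 0 ∧ om b' d = 0 := by
  obtain ⟨y, hy⟩ := om_nondeg hb
  have hc : om d c = -1 := by rw [om_swap, h1]
  have hbc : om b c = 0 := by rw [om_swap, h3, neg_zero]
  refine ⟨(om b y)⁻¹ • (y + (-(om y d)) • c + (om y c) • d), ?_, ?_, ?_⟩
  · rw [om_smul_right, om_add_right, om_add_right, om_smul_right, om_smul_right, hbc, h5]
    field_simp
    ring
  · rw [om_smul_right, om_add_right, om_add_right, om_smul_right, om_smul_right, om_self, h1,
      om_swap y c]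
    ring
  · rw [om_smul_left, om_add_left, om_add_left, om_smul_left, om_smul_left, om_self, h1]
    ring

end basis

section geo

variable {k : Type} [NontriviallyNormedField k]

/-- the form as a bilinear map -/
def omB (k : Type) [Field k] : (Fin 4 → k) →ₗ[k] (Fin 4 → k) →ₗ[k] k :=
  LinearMap.mk₂ k om om_add_left om_smul_left om_add_right om_smul_right

theorem omB_apply {k : Type} [Field k] (x y : Fin 4 → k) : omB k x y = om x y := rfl

/-- a totally isotropic plane is its own orthogonal -/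
theorem mem_of_perp {l : LL k} {x : Fin 4 → k} (h : ∀ y ∈ l.1.1, om y x = 0) : x ∈ l.1.1 :=
  H820.Grid.iso_le (k := k) (V := Fin 4 → k) (by simp) (omB k) (fun x => om_self x)
    (fun x hx => by
      by_contra hne
      obtain ⟨y, hy⟩ := om_nondeg hne
      exact hy (hx y)) ⟨l.1.2, fun x hx y hy => l.2 x hx y hy⟩ h

/-- two independent vectors of a line span it -/
theorem span_line {l : LL k} {c b : Fin 4 → k} (hc : c ∈ l.1.1) (hb : b ∈ l.1.1)
    (hli : ∀ s t : k, s • c + t • b = 0 → s = 0 ∧ t = 0) : Submodule.span k {c, b} = l.1.1 :=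
  H820.Grid.span_pair l.1.2 hc hb (by
    rw [LinearIndependent.pair_iff]
    exact hli)

/-- the line spanned by two vectors of a symplectic basis -/
theorem mk_line {c b : Fin 4 → k} (h0 : om c b = 0)
    (hli : ∀ s t : k, s • c + t • b = 0 → s = 0 ∧ t = 0) :
    ∃ l : LL k, l.1.1 = Submodule.span k {c, b} := by
  have hf : finrank k (Submodule.span k ({c, b} : Set (Fin 4 → k))) = 2 := by
    have h1 : LinearIndependent k ![c, b] := by
      rw [LinearIndependent.pair_iff]
      exact hli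
    have h2 := finrank_span_eq_card h1
    have h3 : Set.range ![c, b] = {c, b} := by simp [Matrix.range_cons, Set.pair_comm]
    rw [h3] at h2
    simpa using h2
  have hs : ∀ x ∈ Submodule.span k ({c, b} : Set (Fin 4 → k)), ∀ y ∈ Submodule.span k ({c, b} :
      Set (Fin 4 → k)), om x y = 0 := by
    intro x hx y hy
    obtain ⟨s, t, rfl⟩ := Submodule.mem_span_pair.1 hx
    obtain ⟨s', t', rfl⟩ := Submodule.mem_span_pair.1 hy
    have h0' : om b c = 0 := by rw [om_swap, h0, neg_zero]
    simp only [om_add_left, om_add_right, om_smul_left, om_smul_right, om_self, h0, h0']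
    ring
  exact ⟨⟨⟨Submodule.span k {c, b}, hf⟩, hs⟩, rfl⟩

/-- the coordinate vectors -/
abbrev ev (k : Type) [NontriviallyNormedField k] (i : Fin 4) : Fin 4 → k := Pi.single i 1

theorem exists_l0 : ∃ l : LL k, l.1.1 = Submodule.span k {ev k 0, ev k 1} := by
  refine mk_line (by simp [om_eq]) fun s t h => ?_
  have h0 := congrFun h 0
  have h1 := congrFun h 1
  simp at h0 h1
  exact ⟨h0, h1⟩

theorem exists_l13 : ∃ l : LL k, l.1.1 = Submodule.span k {ev k 1, ev k 3} := by
  refine mk_line (by simp [om_eq]) fun s t h => ?_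
  have h0 := congrFun h 1
  have h1 := congrFun h 3
  simp at h0 h1
  exact ⟨h0, h1⟩

/-- the line `⟨e_0, e_1⟩` -/
noncomputable def l01 (k : Type) [NontriviallyNormedField k] : LL k := exists_l0.choose

/-- the line `⟨e_1, e_3⟩` -/
noncomputable def l13 (k : Type) [NontriviallyNormedField k] : LL k := exists_l13.choose

theorem l01_val : (l01 k).1.1 = Submodule.span k {ev k 0, ev k 1} := exists_l0.choose_spec

theorem l13_val : (l13 k).1.1 = Submodule.span k {ev k 1, ev k 3} := exists_l13.choose_spec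

/-- to move a line it is enough to move two vectors which span it -/
theorem smul_line {g : S4 k} {l l' : LL k} {c b c' b' : Fin 4 → k}
    (hl : l.1.1 = Submodule.span k {c, b}) (hc : g.1 • c ∈ l'.1.1) (hb : g.1 • b ∈ l'.1.1) :
    g • l = l' := by
  apply Subtype.ext
  apply Subtype.ext
  have h1 : (g • l).1.1 ≤ l'.1.1 := by
    rintro x ⟨y, hy, rfl⟩
    have hy' : y ∈ l.1.1 := hy
    rw [hl] at hy'
    obtain ⟨s, t, rfl⟩ := Submodule.mem_span_pair.1 hy'
    change g.1 • (s • c + t • b) ∈ l'.1.1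
    have e : g.1 • (s • c + t • b) = s • (g.1 • c) + t • (g.1 • b) := by
      change g.1.1 *ᵥ (s • c + t • b) = s • (g.1.1 *ᵥ c) + t • (g.1.1 *ᵥ b)
      rw [Matrix.mulVec_add, Matrix.mulVec_smul, Matrix.mulVec_smul]
    rw [e]
    exact l'.1.1.add_mem (l'.1.1.smul_mem s hc) (l'.1.1.smul_mem t hb)
  exact Submodule.eq_of_le_of_finrank_eq h1 ((g • l).1.2.trans l'.1.2.symm)

theorem b1_smul (w : kˣ) (x : Fin 4 → k) :
    (b1 w) • x = ![((w⁻¹ : kˣ) : k) * x 0, x 1, x 2, (w : k) * x 3] := by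
  change (Matrix.diagonal ![((w⁻¹ : kˣ) : k), 1, 1, (w : k)]) *ᵥ x = _
  ext i
  fin_cases i <;> simp [Matrix.mulVec_diagonal]

theorem sh'_smul (s : k) (x : Fin 4 → k) :
    (sh' s) • x = ![x 0 + s * x 2, x 1 + s * x 3, x 2, x 3] := by
  change !![1, 0, s, 0; 0, 1, 0, s; 0, 0, 1, 0; 0, 0, 0, 1] *ᵥ x = _
  ext i
  fin_cases i <;> simp [Matrix.mulVec, dotProduct, Fin.sum_univ_four]

/-- the wall `b1` in `S4` -/
def B1 (w : kˣ) : S4 k := ⟨b1 w, b1_mem w⟩

/-- the short root group in `S4` -/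
def Sh (s : k) : S4 k := ⟨sh' s, sh'_mem s⟩

theorem B1_l01 (w : kˣ) : B1 w • l01 k = l01 k := by
  refine smul_line (c' := 0) (b' := 0) l01_val ?_ ?_
  · rw [l01_val, Submodule.mem_span_pair]
    refine ⟨((w⁻¹ : kˣ) : k), 0, ?_⟩
    change _ = (b1 w) • ev k 0
    rw [b1_smul]
    ext i
    fin_cases i <;> simp
  · rw [l01_val, Submodule.mem_span_pair]
    refine ⟨0, 1, ?_⟩
    change _ = (b1 w) • ev k 1
    rw [b1_smul]
    ext i
    fin_cases i <;> simp

theorem B1_l13 (w : kˣ) : B1 w • l13 k = l13 k := by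
  refine smul_line (c' := 0) (b' := 0) l13_val ?_ ?_
  · rw [l13_val, Submodule.mem_span_pair]
    refine ⟨1, 0, ?_⟩
    change _ = (b1 w) • ev k 1
    rw [b1_smul]
    ext i
    fin_cases i <;> simp
  · rw [l13_val, Submodule.mem_span_pair]
    refine ⟨0, (w : k), ?_⟩
    change _ = (b1 w) • ev k 3
    rw [b1_smul]
    ext i
    fin_cases i <;> simp

theorem Sh_l01 (s : k) : Sh s • l01 k = l01 k := by
  refine smul_line (c' := 0) (b' := 0) l01_val ?_ ?_
  · rw [l01_val, Submodule.mem_span_pair]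
    refine ⟨1, 0, ?_⟩
    change _ = (sh' s) • ev k 0
    rw [sh'_smul]
    ext i
    fin_cases i <;> simp
  · rw [l01_val, Submodule.mem_span_pair]
    refine ⟨0, 1, ?_⟩
    change _ = (sh' s) • ev k 1
    rw [sh'_smul]
    ext i
    fin_cases i <;> simp

theorem Sh_l13 (s : k) : Sh s • l13 k = l13 k := by
  refine smul_line (c' := 0) (b' := 0) l13_val ?_ ?_
  · rw [l13_val, Submodule.mem_span_pair]
    refine ⟨1, 0, ?_⟩
    change _ = (sh' s) • ev k 1
    rw [sh'_smul]
    ext i
    fin_cases i <;> simp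
  · rw [l13_val, Submodule.mem_span_pair]
    refine ⟨s, 1, ?_⟩
    change _ = (sh' s) • ev k 3
    rw [sh'_smul]
    ext i
    fin_cases i <;> simp

/-- `x` has the representative `c` -/
theorem smul_y0 {g : S4 k} {x : YY k 3} (h : ∃ a : k, a ≠ 0 ∧ g.1 • ev k 0 = a • x.rep) :
    g • (y0 : YY k 3) = x := by
  obtain ⟨a, ha, h⟩ := h
  rw [smul_YY]
  unfold y0
  rw [Projectivization.smul_mk]
  conv_rhs => rw [← Projectivization.mk_rep x]
  rw [Projectivization.mk_eq_mk_iff']
  exact ⟨a, h.symm⟩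

/-- **Transitivity on flags.** -/
theorem trans_flag {x : YY k 3} {l : LL k} (h : on x l) :
    ∃ g : S4 k, g • (y0 : YY k 3) = x ∧ g • l01 k = l := by
  have hc : x.rep ∈ l.1.1 := on_iff.1 h
  have hc0 : x.rep ≠ 0 := x.rep_nonzero
  -- `d` with `om c d = 1`
  obtain ⟨y, hy⟩ := om_nondeg hc0
  obtain ⟨d, hd⟩ : ∃ d, om x.rep d = 1 := ⟨(om x.rep y)⁻¹ • y, by
    rw [om_smul_right, inv_mul_cancel₀ hy]⟩
  -- a second vector on the line, orthogonal to `d`
  obtain ⟨b, hb, hbd, hb0⟩ : ∃ b ∈ l.1.1, om b d = 0 ∧ b ≠ 0 := by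
    by_contra hcon
    push Not at hcon
    have hle : l.1.1 ≤ Submodule.span k {x.rep} := by
      intro z hz
      have h1 : om (z - om z d • x.rep) d = 0 := by
        have e : z - om z d • x.rep = z + (-(om z d)) • x.rep := by rw [neg_smul, sub_eq_add_neg]
        rw [e, om_add_left, om_smul_left, hd]
        ring
      have h2 := hcon _ (l.1.1.sub_mem hz (l.1.1.smul_mem _ hc)) h1
      rw [sub_eq_zero] at h2
      rw [h2]
      exact Submodule.smul_mem _ _ (Submodule.mem_span_singleton_self _)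
    have h3 := Submodule.finrank_mono hle
    have h5 : finrank k l.1.1 = 2 := l.1.2
    exact absurd (h5.symm.le.trans (h3.trans (finrank_span_singleton hc0).le)) (by norm_num)
  have hcb : om x.rep b = 0 := l.2 _ hc _ hb
  obtain ⟨b', e1, e2, e3⟩ := exists_fourth hd hcb hbd hb0
  obtain ⟨g, hg⟩ := exists_cols hd e1 hcb e2 hbd e3
  refine ⟨g, smul_y0 ⟨1, one_ne_zero, ?_⟩, smul_line (c' := 0) (b' := 0) l01_val ?_ ?_⟩
  · rw [hg]
    simp
  · rw [hg]
    simpa using hc
  · rw [hg]
    simpa using hb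

/-- **Transitivity on antiflags.** -/
theorem trans_anti {x : YY k 3} {l : LL k} (h : ¬ on x l) :
    ∃ g : S4 k, g • (y0 : YY k 3) = x ∧ g • l13 k = l := by
  have hc : x.rep ∉ l.1.1 := fun hx => h (on_iff.2 hx)
  have hc0 : x.rep ≠ 0 := x.rep_nonzero
  obtain ⟨y, hyl, hy⟩ : ∃ y ∈ l.1.1, om y x.rep ≠ 0 := by
    by_contra hcon
    push Not at hcon
    exact hc (mem_of_perp hcon)
  have hy' : om x.rep y ≠ 0 := by
    rw [om_swap]
    exact neg_ne_zero.2 hy
  obtain ⟨d, hdl, hd⟩ : ∃ d ∈ l.1.1, om x.rep d = 1 := ⟨(om x.rep y)⁻¹ • y,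
    l.1.1.smul_mem _ hyl, by rw [om_smul_right, inv_mul_cancel₀ hy']⟩
  have hd0 : d ≠ 0 := by
    rintro rfl
    rw [om_swap, om_zero_left] at hd
    simp at hd
  obtain ⟨b, hb, hcb, hb0⟩ : ∃ b ∈ l.1.1, om x.rep b = 0 ∧ b ≠ 0 := by
    by_contra hcon
    push Not at hcon
    have hle : l.1.1 ≤ Submodule.span k {d} := by
      intro z hz
      have h1 : om x.rep (z - om x.rep z • d) = 0 := by
        have e : z - om x.rep z • d = z + (-(om x.rep z)) • d := by rw [neg_smul, sub_eq_add_neg]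
        rw [e, om_add_right, om_smul_right, hd]
        ring
      have h2 := hcon _ (l.1.1.sub_mem hz (l.1.1.smul_mem _ hdl)) h1
      rw [sub_eq_zero] at h2
      rw [h2]
      exact Submodule.smul_mem _ _ (Submodule.mem_span_singleton_self _)
    have h3 := Submodule.finrank_mono hle
    have h5 : finrank k l.1.1 = 2 := l.1.2
    exact absurd (h5.symm.le.trans (h3.trans (finrank_span_singleton hd0).le)) (by norm_num)
  have hbd : om b d = 0 := l.2 _ hb _ hdl
  obtain ⟨b', e1, e2, e3⟩ := exists_fourth hd hcb hbd hb0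
  obtain ⟨g, hg⟩ := exists_cols hd e1 hcb e2 hbd e3
  refine ⟨g, smul_y0 ⟨1, one_ne_zero, ?_⟩, smul_line (c' := 0) (b' := 0) l13_val ?_ ?_⟩
  · rw [hg]
    simp
  · rw [hg]
    simpa using hb
  · rw [hg]
    simpa using hdl

/-- the stabilisers used by (R): both base lines are fixed by `b1` and by `sh'` -/
theorem fix_pair (x : YY k 3) (l : LL k) : ∃ g : S4 k, g • (y0 : YY k 3) = x ∧
    (∀ w, (g * B1 w * g⁻¹) • l = l) ∧ ∀ s, (g * Sh s * g⁻¹) • l = l := by
  by_cases h : on x l
  · obtain ⟨g, h1, h2⟩ := trans_flag h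
    refine ⟨g, h1, fun w => ?_, fun s => ?_⟩
    · rw [← h2, mul_smul, mul_smul, inv_smul_smul, B1_l01]
    · rw [← h2, mul_smul, mul_smul, inv_smul_smul, Sh_l01]
  · obtain ⟨g, h1, h2⟩ := trans_anti h
    refine ⟨g, h1, fun w => ?_, fun s => ?_⟩
    · rw [← h2, mul_smul, mul_smul, inv_smul_smul, B1_l13]
    · rw [← h2, mul_smul, mul_smul, inv_smul_smul, Sh_l13]

end geo

end Vale.Agent.P092.H306.Pu
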