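import Vale.Agent.P092.SP.Defs
import Vale.Agent.P092.H306.Pu1
import Vale.Agent.P092.H306.Pu2

/-!
P092 (helper306), TEAM P, block [P-PUR] part 3: (R) for opposite sets in the letters of `SP.Defs`:
the limits at a source point and at a source line (any relative position) with the same target
type have product zero on opposite supports, given the capacity of the target (helper315).
-/

set_option linter.all false

open scoped InnerProductSpace ENNReal LinearAlgebra.Projectivization Matrix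
open Filter Topology ContinuousLinearMap MeasureTheory TopologicalSpace

namespace Vale.Agent.P092.H306.Pu

open Vale.Agent.P092.SD (Ms UC)
open Vale.Agent.P092.RC (Cm TRN Moore GG PG YY y0)
open Vale.Agent.P092.H790.CTA (ORBG SIZEG)
open Vale.Agent.P092.H790.CT (PicL)
open Vale.Agent.P092.SP4 (S4 LL on)
open Vale.Agent.P092.SP (PB UFam NA1 NA2 nm UD PH Sh' act opp1 opp2 UL)

section shell

variable {Y : Type} [TopologicalSpace Y] [CompactSpace Y] [T2Space Y]

/-- a compact set in open position to another one has a neighbourhood with closure in the same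
position -/
theorem exists_shell {O : Y → Y → Prop} (hO : IsOpen {p : Y × Y | O p.1 p.2}) {K₁ K₂ : Set Y}
    (h1 : IsClosed K₁) (h2 : IsClosed K₂) (h : ∀ x ∈ K₁, ∀ y ∈ K₂, O x y) :
    ∃ A : Set Y, IsOpen A ∧ K₁ ⊆ A ∧ ∀ x ∈ closure A, ∀ y ∈ K₂, O x y := by
  obtain ⟨U, V, hU, hV, hKU, hKV, hUV⟩ := generalized_tube_lemma h1.isCompact h2.isCompact hO
    (fun p hp => h p.1 hp.1 p.2 hp.2)
  obtain ⟨A, hA, hKA, hAU⟩ := normal_exists_closure_subset h1 hU hKU
  exact ⟨A, hA, hKA, fun x hx y hy => hUV (Set.mk_mem_prod (hAU hx) (hKV hy))⟩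

end shell

section sizes

variable {k : Type} [NontriviallyNormedField k]

theorem nm_mul_le (g h : S4 k) : nm (g * h) ≤ 4 * nm g * nm h := by
  unfold nm SN.nm
  rw [pi_norm_le_iff_of_nonneg (by positivity)]
  intro i
  rw [pi_norm_le_iff_of_nonneg (by positivity)]
  intro j
  change ‖(g.1.1 * h.1.1) i j‖ ≤ _
  rw [Matrix.mul_apply]
  refine (norm_sum_le _ _).trans ?_
  have h1 : ∀ l : Fin 4, ‖g.1.1 i l * h.1.1 l j‖ ≤
      ‖(fun i j => g.1.1 i j : Fin 4 → Fin 4 → k)‖ * ‖(fun i j => h.1.1 i j : Fin 4 → Fin 4 → k)‖ := by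
    intro l
    rw [norm_mul]
    refine mul_le_mul ?_ ?_ (norm_nonneg _) (norm_nonneg _)
    · exact (norm_le_pi_norm (fun j => g.1.1 i j) l).trans
        (norm_le_pi_norm (fun i j => g.1.1 i j : Fin 4 → Fin 4 → k) i)
    · exact (norm_le_pi_norm (fun j => h.1.1 l j) j).trans
        (norm_le_pi_norm (fun i j => h.1.1 i j : Fin 4 → Fin 4 → k) l)
  refine (Finset.sum_le_sum fun l _ => h1 l).trans ?_
  rw [Finset.sum_const, Finset.card_univ, Fintype.card_fin, nsmul_eq_mul]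
  push_cast
  exact le_of_eq (by ring)

theorem nm_pos (g : S4 k) : 0 < nm g := by
  have h0 : 0 ≤ nm g := norm_nonneg _
  rcases h0.lt_or_eq with h | h
  · exact h
  · exfalso
    have h1 : (fun i j => g.1.1 i j : Fin 4 → Fin 4 → k) = 0 := norm_eq_zero.1 h.symm
    have h2 : g.1.1 = 0 := by
      ext i j
      exact congrFun (congrFun h1 i) j
    have h3 := g.1.2
    rw [h2, Matrix.det_zero] at h3
    exact zero_ne_one h3

/-- translations distort the size by a bounded factor -/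
theorem nm_dist {Γ : Type} [Group Γ] {q : Γ → S4 k} (hq : PH q) (γ : Γ) :
    ∃ d : ℝ, 1 ≤ d ∧ ∀ y, nm (q (γ * y)) ≤ d * nm (q y) := by
  refine ⟨max 1 (4 * nm (q γ)), le_max_left _ _, fun y => ?_⟩
  obtain ⟨c, hc⟩ := hq γ y
  have h1 : c ^ 4 = 1 := by
    have h2 := congrArg Matrix.det hc
    rw [Matrix.det_smul, Fintype.card_fin] at h2
    have h3 : (q (γ * y)).1.1.det = 1 := (q (γ * y)).1.2
    have h4 : ((q γ).1 * (q y).1).1.det = 1 := ((q γ).1 * (q y).1).2
    rw [h3, h4, mul_one] at h2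
    exact h2.symm
  have h5 : ‖c‖ = 1 := by
    have h6 : ‖c‖ ^ 4 = 1 := by rw [← norm_pow, h1, norm_one]
    exact (pow_eq_one_iff_of_nonneg (norm_nonneg _) (by norm_num)).1 h6
  have h7 : nm (q (γ * y)) = nm (q γ * q y) := by
    unfold nm SN.nm
    have h8 : (fun i j => (q (γ * y)).1.1 i j : Fin 4 → Fin 4 → k) =
        c • (fun i j => (q γ * q y).1.1 i j : Fin 4 → Fin 4 → k) := by
      funext i j
      exact congrFun (congrFun hc i) j
    change ‖(fun i j => (q (γ * y)).1.1 i j : Fin 4 → Fin 4 → k)‖ =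
      ‖(fun i j => (q γ * q y).1.1 i j : Fin 4 → Fin 4 → k)‖
    rw [h8, norm_smul, h5, one_mul]
  rw [h7]
  refine (nm_mul_le _ _).trans ?_
  exact mul_le_mul_of_nonneg_right (le_max_right _ _) (nm_pos _).le

end sizes

section main

variable {k : Type} [NontriviallyNormedField k] [ProperSpace k] [MeasurableSpace k] [BorelSpace k]
  {μ : Measure k} [IsFiniteMeasureOnCompacts μ] [μ.IsOpenPosMeasure] {w : kˣ} {𝒰 : Ultrafilter ℕ}
  {E Γ K : Type} [Group E] [TopologicalSpace E] [Group Γ] [NormedAddCommGroup K]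
  [InnerProductSpace ℂ K] [CompleteSpace K] {ι : S4 k →* E} {a : E →* PG k 4}
  {π : E →* (K →L[ℂ] K)} {lam : Γ →* (K →L[ℂ] K)} {W : Set (K →L[ℂ] K)} {Ω : K}
  {m : Set Γ → (K →L[ℂ] K)} {q : Γ → S4 k}
  {Y : Type} [TopologicalSpace Y] [CompactSpace Y] [T2Space Y] [MulAction (S4 k) Y]
  [ContinuousConstSMul (S4 k) Y]

/-- the capacity of the target: few elements of `Γ` near the wall with a given size move a point
into a set opposite to the attracting set -/
def CapStmt (q : Γ → S4 k) (NA : ℝ → ℝ → Set Y → Set Γ) (O : Y → Y → Prop) : Prop :=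
  ∀ A B : Set Y, IsOpen A → IsClosed B → (∀ x ∈ closure A, ∀ y ∈ B, O x y) →
    ∀ R : ℝ, ∃ T > 0, ∃ C : ℝ, ∀ J : ℝ, 0 ≤ J → ∀ S : Finset Γ,
      (∀ γ ∈ S, γ ∈ NA R T A ∧ Real.log (nm (q γ)) ≤ J) → ∀ y, (∀ γ ∈ S, q γ • y ∈ B) →
        (S.card : ℝ) ≤ C * (1 + J)

theorem continuous_Sh' : Continuous (Sh' : k → S4 k) := by
  refine Continuous.subtype_mk (Continuous.subtype_mk ?_ _) _
  refine continuous_matrix fun i j => ?_
  fin_cases i <;> fin_cases j <;> simp <;> fun_prop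

theorem Sh'_zero : (Sh' 0 : S4 k) = 1 := by
  apply Subtype.ext
  apply Subtype.ext
  change !![1, 0, (0 : k), 0; 0, 1, 0, (0 : k); 0, 0, 1, 0; 0, 0, 0, 1] = 1
  ext i j
  fin_cases i <;> fin_cases j <;> simp

/-- **(R) for opposite sets**: a source point and a source line, the same target type. -/
theorem ropp_fam (hb : PB μ w 𝒰 ι a π lam W Ω m q) {NA : ℝ → ℝ → Set Y → Set Γ}
    {U : YY k 3 → (C(Y, ℂ) →ₗ[ℂ] (K →L[ℂ] K))} {p : ℝ}
    {F : LL k → (C(Y, ℂ) →ₗ[ℂ] (K →L[ℂ] K))} {p' : ℝ}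
    (hU : UFam 𝒰 (SP.B1 w) (y0 : YY k 3) ι π lam W m q NA U p)
    (hF : UFam 𝒰 (SP.B2 w) SP.l0 ι π lam W m q NA F p') {O : Y → Y → Prop}
    (hO : IsOpen {p : Y × Y | O p.1 p.2}) (hcap : CapStmt q NA O) (c : YY k 3) (l : LL k)
    (u h : C(Y, ℂ)) (huh : ∀ x ∈ tsupport u, ∀ y ∈ tsupport h, O x y) :
    U c u * F l h = 0 := by
  haveI := hb.adm.tg
  obtain ⟨g, hg, hg1, hg2⟩ := fix_pair c l
  obtain ⟨A, hA, huA, hAO⟩ := exists_shell hO (isClosed_tsupport u) (isClosed_tsupport h) huh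
  obtain ⟨ρ, hρ, hρ1, hORB⟩ := hb.orb1
  have hfix : ∀ e : S4 k, e • l = l → Commute (F l h) (π (ι e)) := by
    intro e he
    have h1 := hF.pcov e l h
    rw [he] at h1
    have h2 : π (ι e)⁻¹ * π (ι e) = 1 := by rw [← map_mul, inv_mul_cancel, map_one]
    change F l h * π (ι e) = π (ι e) * F l h
    calc F l h * π (ι e) = (π (ι e) * F l h * π (ι e)⁻¹) * π (ι e) := by rw [h1]
      _ = π (ι e) * F l h * (π (ι e)⁻¹ * π (ι e)) := by simp only [mul_assoc]
      _ = π (ι e) * F l h := by rw [h2, mul_one]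
  have hcov : ∀ γ (f f' : C(Y, ℂ)), (∀ y, f' (q γ • y) = f y) →
      lam γ * F l f * lam γ⁻¹ = F l f' := by
    intro γ f f' hff
    rw [hF.cov]
    congr 1
    ext y
    change f ((q γ)⁻¹ • y) = f' y
    rw [← hff, smul_inv_smul]
  have key : U (g • (y0 : YY k 3)) u * F l h = 0 := by
    refine ropp (μ := μ) (V := k) (b := ι (SP.B1 w)) (n := fun s => ι (Sh' s)) (g := ι g)
      (sz := fun γ => nm (q γ)) (q := q) (𝒰 := (𝒰 : Filter ℕ)) (NA := fun R T => NA R T A)
      (c := ‖u‖) (d := 1)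
      (PicL.of_pic hb.pic) hb.ms hb.uc hρ hρ1 ?_ hORB (fun γ => nm_pos _) (nm_dist hb.ph) hb.size1
      hb.h𝒰 (hF.ul l) (hF.cm l h) hcov ?_ ?_ ?_ ?_
    · have h1 : Continuous fun s : k => ι (Sh' s) := hb.adm.cι.comp continuous_Sh'
      have h2 := h1.tendsto 0
      rwa [Sh'_zero, map_one] at h2
    · rw [← map_mul, ← map_inv, ← map_mul]
      exact hfix _ (hg1 w)
    · intro s
      rw [← map_mul, ← map_inv, ← map_mul]
      exact hfix _ (hg2 s)
    · intro ζ ε hε
      obtain ⟨R, hR⟩ := hU.dom g u A hA huA ζ ε hε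
      refine ⟨R, fun T hT => (hR T hT).mono fun t ht => ?_⟩
      rw [← map_pow, ← map_mul, ← map_inv, ← map_mul]
      exact ht
    · intro R
      obtain ⟨T, hT, C, hC⟩ := hcap A (tsupport h) hA (isClosed_tsupport h) hAO R
      refine ⟨T, hT, C, fun J hJ S hS y hy => ?_⟩
      rw [pow_one]
      exact hC J hJ S hS y hy
  rw [hg] at key
  exact key

end main

end Vale.Agent.P092.H306.Pu
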