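import Vale.Agent.P092.H306.Pu3
import Vale.Agent.P092.H43.PPur

/-!
P092 (helper306), TEAM P, block [P-PUR] part 4: purity and the permutation of the types, from the
capacities of the target and its proximality.
-/

set_option linter.all false

open scoped InnerProductSpace ENNReal LinearAlgebra.Projectivization Matrix
open Filter Topology ContinuousLinearMap MeasureTheory TopologicalSpace

namespace Vale.Agent.P092.H306.Pu

open Vale.Agent.P092.SD (Ms UC)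
open Vale.Agent.P092.RC (Cm TRN Moore GG PG YY y0)
open Vale.Agent.P092.SP4 (S4 LL on)
open Vale.Agent.P092.SP (PB UFam LegP NA1 NA2 nm UD PH Sh' act opp1 opp2 UL)
open Vale.Agent.P092.H43.PPur (Fam Prx excl)

section main

variable {k : Type} [NontriviallyNormedField k] [ProperSpace k] [MeasurableSpace k] [BorelSpace k]
  {μ : Measure k} [IsFiniteMeasureOnCompacts μ] [μ.IsOpenPosMeasure] {w : kˣ} {𝒰 : Ultrafilter ℕ}
  {E Γ K : Type} [Group E] [TopologicalSpace E] [Group Γ] [NormedAddCommGroup K]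
  [InnerProductSpace ℂ K] [CompleteSpace K] {ι : S4 k →* E} {a : E →* PG k 4}
  {π : E →* (K →L[ℂ] K)} {lam : Γ →* (K →L[ℂ] K)} {W : Set (K →L[ℂ] K)} {Ω : K}
  {m : Set Γ → (K →L[ℂ] K)} {q : Γ → S4 k}

section fam

variable {X Y : Type} [MulAction (S4 k) X] [TopologicalSpace Y] [CompactSpace Y] [T2Space Y]
  [MulAction (S4 k) Y] [ContinuousConstSMul (S4 k) Y]

theorem fam_of_ufam (hb : PB μ w 𝒰 ι a π lam W Ω m q) {b : S4 k} {v0 : X}
    {NA : ℝ → ℝ → Set Y → Set Γ} {U : X → (C(Y, ℂ) →ₗ[ℂ] (K →L[ℂ] K))} {p : ℝ}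
    (h : UFam 𝒰 b v0 ι π lam W m q NA U p) : Fam π lam W q p U where
  ul := h.ul
  cm := h.cm
  cov γ z f f' hff := by
    rw [h.cov]
    congr 1
    ext y
    change f ((q γ)⁻¹ • y) = f' y
    rw [← hff, smul_inv_smul]
  pst e z := by
    obtain ⟨g, rfl⟩ := hb.adm.sur e
    exact ⟨g • z, fun f => h.pcov g z f⟩

/-- a target type occurs at one of the two source types only -/
theorem excl_type (hb : PB μ w 𝒰 ι a π lam W Ω m q) {NA : ℝ → ℝ → Set Y → Set Γ}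
    {U : YY k 3 → (C(Y, ℂ) →ₗ[ℂ] (K →L[ℂ] K))} {p : ℝ}
    {F : LL k → (C(Y, ℂ) →ₗ[ℂ] (K →L[ℂ] K))} {p' : ℝ}
    (hU : UFam 𝒰 (SP.B1 w) (y0 : YY k 3) ι π lam W m q NA U p)
    (hF : UFam 𝒰 (SP.B2 w) SP.l0 ι π lam W m q NA F p') {O : Y → Y → Prop}
    (hO : IsOpen {p : Y × Y | O p.1 p.2}) (hcap : CapStmt q NA O)
    {Y' : Type} {Op : Y' → Set Y} (hx : Prx q Op) {x y : Y} (hxy : O x y) : p = 0 ∨ p' = 0 := by
  obtain ⟨U₁, U₂, h1, h2, hx1, hy2, h3⟩ := isOpen_prod_iff.1 hO x y hxy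
  haveI : Nonempty (YY k 3) := ⟨y0⟩
  haveI : Nonempty (LL k) := ⟨SP.l0⟩
  refine excl (U := U₁) (U' := U₂) hb.pic (fam_of_ufam hb hU) (fam_of_ufam hb hF) hx h1 ⟨x, hx1⟩ h2 ⟨y, hy2⟩ ?_
  intro c l f g hf hg
  exact ropp_fam hb hU hF hO hcap c l f g fun s hs t ht =>
    h3 (Set.mk_mem_prod (hf hs) (hg ht))

end fam

/-- **Purity and permutation** ([P-PUR]) from the capacities and the cells. -/
theorem pur_of {U11 : YY k 3 → (C(YY k 3, ℂ) →ₗ[ℂ] (K →L[ℂ] K))} {p11 : ℝ}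
    {U12 : YY k 3 → (C(LL k, ℂ) →ₗ[ℂ] (K →L[ℂ] K))} {p12 : ℝ}
    {U21 : LL k → (C(YY k 3, ℂ) →ₗ[ℂ] (K →L[ℂ] K))} {p21 : ℝ}
    {U22 : LL k → (C(LL k, ℂ) →ₗ[ℂ] (K →L[ℂ] K))} {p22 : ℝ}
    (h : LegP μ w 𝒰 ι a π lam W Ω m q U11 p11 U12 p12 U21 p21 U22 p22)
    (cap1 : CapStmt q (NA1 q) opp1) (cap2 : CapStmt q (NA2 q) opp2)
    (ho1 : IsOpen {p : YY k 3 × YY k 3 | opp1 p.1 p.2})
    (ho2 : IsOpen {p : LL k × LL k | opp2 p.1 p.2})
    (hx1 : Prx q (fun z : YY k 3 => {y | opp1 y z})) (hx2 : Prx q (fun z : LL k => {y | opp2 y z})) :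
    (p11 = 1 ∧ p22 = 1) ∨ (p12 = 1 ∧ p21 = 1) := by
  obtain ⟨z1, hz1⟩ := hx1.all y0
  obtain ⟨z2, hz2⟩ := hx2.all SP.l0
  have e1 : p11 = 0 ∨ p21 = 0 := excl_type h.base h.u11 h.u21 ho1 cap1 hx1 hz1
  have e2 : p12 = 0 ∨ p22 = 0 := excl_type h.base h.u12 h.u22 ho2 cap2 hx2 hz2
  have s1 := h.s1
  have s2 := h.s2
  rcases e1 with e | e
  · right
    have h12 : p12 = 1 := by rw [e, zero_add] at s1; exact s1
    have h22 : p22 = 0 := by
      rcases e2 with e' | e'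
      · rw [e'] at h12
        exact absurd h12 zero_ne_one
      · exact e'
    refine ⟨h12, ?_⟩
    rw [h22, add_zero] at s2
    exact s2
  · left
    have h22 : p22 = 1 := by rw [e, zero_add] at s2; exact s2
    have h12 : p12 = 0 := by
      rcases e2 with e' | e'
      · exact e'
      · rw [e'] at h22
        exact absurd h22 zero_ne_one
    refine ⟨?_, h22⟩
    rw [h12, add_zero] at s1
    exact s1

end main

end Vale.Agent.P092.H306.Pu
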