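import Vale.Agent.P092.SP.Defs
import Vale.Agent.P092.H306.Pu2

/-!
P092 (helper306), TEAM P: the source configurations of (R)opp and of the two keys in the letters of
`SP.Defs`: `fix1` (wall `B1`, root group `Sh'`, base point `y0`, any line) and `fix2` (wall `B2`,
root group `Lg`, base line `l0`, any point).
-/

set_option linter.all false

open Matrix Module Set Topology
open scoped LinearAlgebra.Projectivization

namespace Vale.Agent.P092.H306.Pu

open Vale.Agent.P092.SP4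
open Vale.Agent.P092.RC (YY y0)

section geo

variable {k : Type} [NontriviallyNormedField k]

/-- **the first configuration**: `B1` and `Sh'` fix the line `l`, in any position to `x` -/
theorem fix1 (x : YY k 3) (l : LL k) : ∃ g : S4 k, g • (y0 : YY k 3) = x ∧
    (∀ w, (g * SP.B1 w * g⁻¹) • l = l) ∧ ∀ s, (g * SP.Sh' s * g⁻¹) • l = l := fix_pair x l

theorem l0_val : (SP.l0 : LL k).1.1 = Submodule.span k {ev k 0, ev k 1} := by
  apply le_antisymm
  · intro x hx
    obtain ⟨h2, h3⟩ := SP.mem_l0.1 hx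
    rw [Submodule.mem_span_pair]
    refine ⟨x 0, x 1, ?_⟩
    ext i
    fin_cases i <;> simp [h2, h3]
  · rw [Submodule.span_le]
    intro x hx
    rcases hx with rfl | hx
    · exact SP.mem_l0.2 (by simp)
    · rw [Set.mem_singleton_iff] at hx
      subst hx
      exact SP.mem_l0.2 (by simp)

theorem l0_eq : (SP.l0 : LL k) = l01 k := Subtype.ext (Subtype.ext (l0_val.trans l01_val.symm))

theorem ev_ne (i : Fin 4) : ev k i ≠ 0 := by
  intro h
  have := congrFun h i
  simp at this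

/-- the point `[e_i]` -/
noncomputable def pe (k : Type) [NontriviallyNormedField k] (i : Fin 4) : YY k 3 :=
  Projectivization.mk k (ev k i) (ev_ne i)

theorem smul_pe {g : S4 k} {i : Fin 4} {x : YY k 3}
    (h : ∃ a : k, g.1 • ev k i = a • x.rep) : g • pe k i = x := by
  obtain ⟨a, h⟩ := h
  rw [smul_YY]
  unfold pe
  rw [Projectivization.smul_mk]
  conv_rhs => rw [← Projectivization.mk_rep x]
  rw [Projectivization.mk_eq_mk_iff']
  exact ⟨a, h.symm⟩

theorem b2_smul (w : kˣ) (x : Fin 4 → k) :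
    (b2 w) • x = ![((w⁻¹ : kˣ) : k) * x 0, ((w⁻¹ : kˣ) : k) * x 1, (w : k) * x 2, (w : k) * x 3] := by
  change (Matrix.diagonal ![((w⁻¹ : kˣ) : k), ((w⁻¹ : kˣ) : k), (w : k), (w : k)]) *ᵥ x = _
  ext i
  fin_cases i <;> simp [Matrix.mulVec_diagonal]

theorem lg_smul (s : k) (x : Fin 4 → k) : (lg s) • x = ![x 0 + s * x 3, x 1, x 2, x 3] := by
  change !![1, 0, 0, s; 0, 1, 0, 0; 0, 0, 1, 0; 0, 0, 0, 1] *ᵥ x = _
  ext i
  fin_cases i <;> simp [Matrix.mulVec, dotProduct, Fin.sum_univ_four]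

theorem fix_pe {g : S4 k} {i : Fin 4} (h : ∃ a : k, g.1 • ev k i = a • ev k i) :
    g • pe k i = pe k i := by
  obtain ⟨a, h⟩ := h
  rw [smul_YY]
  unfold pe
  rw [Projectivization.smul_mk, Projectivization.mk_eq_mk_iff']
  exact ⟨a, h.symm⟩

theorem B2_pe (w : kˣ) (i : Fin 4) : SP.B2 w • pe k i = pe k i := by
  fin_cases i
  · exact fix_pe ⟨((w⁻¹ : kˣ) : k), by
      change (b2 w) • ev k 0 = _
      rw [b2_smul]
      ext j
      fin_cases j <;> simp⟩
  · exact fix_pe ⟨((w⁻¹ : kˣ) : k), by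
      change (b2 w) • ev k 1 = _
      rw [b2_smul]
      ext j
      fin_cases j <;> simp⟩
  · exact fix_pe ⟨(w : k), by
      change (b2 w) • ev k 2 = _
      rw [b2_smul]
      ext j
      fin_cases j <;> simp⟩
  · exact fix_pe ⟨(w : k), by
      change (b2 w) • ev k 3 = _
      rw [b2_smul]
      ext j
      fin_cases j <;> simp⟩

theorem Lg_pe0 (s : k) : SP.Lg s • pe k 0 = pe k 0 := fix_pe ⟨1, by
  change (lg s) • ev k 0 = _
  rw [lg_smul]
  ext j
  fin_cases j <;> simp⟩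

theorem Lg_pe2 (s : k) : SP.Lg s • pe k 2 = pe k 2 := fix_pe ⟨1, by
  change (lg s) • ev k 2 = _
  rw [lg_smul]
  ext j
  fin_cases j <;> simp⟩

/-- transitivity on antiflags, base pair `(⟨e_0, e_1⟩, [e_2])` -/
theorem trans_anti2 {x : YY k 3} {l : LL k} (h : ¬ on x l) :
    ∃ g : S4 k, g • SP.l0 = l ∧ g • pe k 2 = x := by
  have hc : x.rep ∉ l.1.1 := fun hx => h (on_iff.2 hx)
  obtain ⟨y, hyl, hy⟩ : ∃ y ∈ l.1.1, om y x.rep ≠ 0 := by
    by_contra hcon
    push Not at hcon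
    exact hc (mem_of_perp hcon)
  -- `b ∈ l` with `om b x = 1`
  obtain ⟨b, hbl, hb⟩ : ∃ b ∈ l.1.1, om b x.rep = 1 := ⟨(om y x.rep)⁻¹ • y,
    l.1.1.smul_mem _ hyl, by rw [om_smul_left, inv_mul_cancel₀ hy]⟩
  have hb0 : b ≠ 0 := by
    rintro rfl
    rw [om_zero_left] at hb
    exact zero_ne_one hb
  -- the foot
  obtain ⟨c, hcl, hcx, hc0⟩ : ∃ c ∈ l.1.1, om c x.rep = 0 ∧ c ≠ 0 := by
    by_contra hcon
    push Not at hcon
    have hle : l.1.1 ≤ Submodule.span k {b} := by
      intro z hz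
      have h1 : om (z - om z x.rep • b) x.rep = 0 := by
        have e : z - om z x.rep • b = z + (-(om z x.rep)) • b := by rw [neg_smul, sub_eq_add_neg]
        rw [e, om_add_left, om_smul_left, hb]
        ring
      have h2 := hcon _ (l.1.1.sub_mem hz (l.1.1.smul_mem _ hbl)) h1
      rw [sub_eq_zero] at h2
      rw [h2]
      exact Submodule.smul_mem _ _ (Submodule.mem_span_singleton_self _)
    have h3 := Submodule.finrank_mono hle
    have h5 : finrank k l.1.1 = 2 := l.1.2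
    exact absurd (h5.symm.le.trans (h3.trans (finrank_span_singleton hb0).le)) (by norm_num)
  have hbc : om b c = 0 := l.2 _ hbl _ hcl
  obtain ⟨d, e1, e2, e3⟩ := exists_fourth hb hbc hcx hc0
  have hcb : om c b = 0 := l.2 _ hcl _ hbl
  have e3' : om x.rep d = 0 := by rw [om_swap, e3, neg_zero]
  obtain ⟨g, hg⟩ := exists_cols e1 hb hcb hcx e2 e3'
  refine ⟨g, smul_line (c' := 0) (b' := 0) l0_val ?_ ?_, smul_pe ⟨1, ?_⟩⟩
  · rw [hg]
    simpa using hcl
  · rw [hg]
    simpa using hbl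
  · rw [hg]
    simp

/-- transitivity on flags, base pair `(⟨e_0, e_1⟩, [e_0])` -/
theorem trans_flag2 {x : YY k 3} {l : LL k} (h : on x l) :
    ∃ g : S4 k, g • SP.l0 = l ∧ g • pe k 0 = x := by
  obtain ⟨g, h1, h2⟩ := trans_flag h
  exact ⟨g, by rw [l0_eq]; exact h2, h1⟩

/-- **the second configuration**: `B2` and `Lg` fix the point `x`, in any position to `l` -/
theorem fix2 (x : YY k 3) (l : LL k) : ∃ g : S4 k, g • SP.l0 = l ∧
    (∀ w, (g * SP.B2 w * g⁻¹) • x = x) ∧ ∀ s, (g * SP.Lg s * g⁻¹) • x = x := by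
  by_cases h : on x l
  · obtain ⟨g, h1, h2⟩ := trans_flag2 h
    refine ⟨g, h1, fun w => ?_, fun s => ?_⟩
    · rw [← h2, mul_smul, mul_smul, inv_smul_smul, B2_pe]
    · rw [← h2, mul_smul, mul_smul, inv_smul_smul, Lg_pe0]
  · obtain ⟨g, h1, h2⟩ := trans_anti2 h
    refine ⟨g, h1, fun w => ?_, fun s => ?_⟩
    · rw [← h2, mul_smul, mul_smul, inv_smul_smul, B2_pe]
    · rw [← h2, mul_smul, mul_smul, inv_smul_smul, Lg_pe2]

end geo

end Vale.Agent.P092.H306.Pu
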