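import Vale.Agent.P092.SP.Blocks
import Vale.Agent.P092.H306.Pu4
import Vale.Agent.P092.H315P.OppD
import Vale.Agent.P092.H43.PPrx

/-!
P092 (helper306, with helper43, helper315, helper673, helper854), TEAM P, row [P-PUR]: purity of the
walls and the permutation of the types, every local field.
-/

set_option linter.all false

open scoped InnerProductSpace ENNReal LinearAlgebra.Projectivization
open Filter Topology ContinuousLinearMap MeasureTheory TopologicalSpace

namespace Vale.Agent.P092.H306.Pu

/-- **[P-PUR]** -/
theorem purStmt (k : Type) [NontriviallyNormedField k] [ProperSpace k] [MeasurableSpace k]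
    [BorelSpace k] (μ : Measure k) [IsFiniteMeasureOnCompacts μ] [μ.IsOpenPosMeasure] :
    SP.PurStmt k μ := by
  intro E Γ K _ _ _ _ _ _ w 𝒰 ι a π lam W Ω m q U11 p11 U12 p12 U21 p21 U22 p22 h
  exact pur_of h (H315P.Opp.capStmt1 h.base.ud) (H315P.Opp.capStmt2 h.base.ud)
    H43.PPrx.opp1_open H43.PPrx.opp2_open (H43.PPrx.prx1 h.base) (H43.PPrx.prx2 h.base)

end Vale.Agent.P092.H306.Pu
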